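import Crest.Agent.X212.Lad50.Alex
import Crest.Agent.X212.Smo49.Wrap
import Crest.Agent.X212.Sol49.Top
import Crest.Agent.X212.Thk1.PL
import Crest.Agent.R105.Iod1_690
import Crest.Agent.R096.Pb1_715
import Crest.Agent.R096.Cb3_609

/-!
# X212 / H layer / SPH3 (helper1): the smooth Schoenflies theorem in three-space, relative to a
collar
-/

set_option autoImplicit false

open Set Metric Topology Filter
open scoped ContDiff

namespace Crest.Agent.X212.Sph1

open Crest.Agent.R096 Crest.Agent.R096.Ce_537 Crest.Agent.X212.Smo49 Crest.Agent.X212.Thk1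
open Crest.Agent.R096.P5Spec_205 (HomeoOn)
open Crest.Agent.R105.Iod1_690 (isOpen_image_fd)

/-- Euclidean three-space -/
abbrev E3 : Type := EuclideanSpace ℝ (Fin 3)

/-- a continuous injection of an open set is a homeomorphism onto an open set -/
theorem homeoOn_of_inj {h : E3 → E3} {U : Set E3} (hU : IsOpen U) (hc : ContinuousOn h U)
    (hi : InjOn h U) : HomeoOn h U (h '' U) ∧ IsOpen (h '' U) := by
  refine ⟨⟨hi.bijOn_image, hc, Function.invFunOn h U, ?_, fun x hx => hi.leftInvOn_invFunOn hx⟩,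
    isOpen_image_fd rfl hU hc hi⟩
  rw [_root_.continuousOn_iff']
  intro t ht
  refine ⟨h '' (U ∩ t), isOpen_image_fd rfl (hU.inter ht) (hc.mono inter_subset_left)
    (hi.mono inter_subset_left), ?_⟩
  ext y
  constructor
  · rintro ⟨h1, x, hx, rfl⟩
    rw [mem_preimage, hi.leftInvOn_invFunOn hx] at h1
    exact ⟨⟨x, ⟨hx, h1⟩, rfl⟩, x, hx, rfl⟩
  · rintro ⟨⟨x, hx, rfl⟩, h1⟩
    exact ⟨by rw [mem_preimage, hi.leftInvOn_invFunOn hx.1]; exact hx.2, h1⟩

/-- Alexander's theorem in Euclidean space -/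
theorem alexE {Q dQ W : Set E3} {b : E3 → E3} (hQ : IsBall 3 Q dQ) (hb : PLOn b dQ)
    (hi : InjOn b dQ) (hW : IsCompact W) (hf : frontier W ⊆ b '' dQ) (hn : ¬ W ⊆ b '' dQ) :
    ∃ e : PLEquiv Q W, EqOn e.f b dQ := by
  let L : E3 ≃L[ℝ] (Fin 3 → ℝ) := EuclideanSpace.equiv (Fin 3) ℝ
  let a : ∀ A : Set E3, PLEquiv A (L '' A) := fun A =>
    ⟨L, L.symm, pl_clm (L : E3 →L[ℝ] (Fin 3 → ℝ)) _, pl_clm (L.symm : (Fin 3 → ℝ) →L[ℝ] E3) _,
      fun x hx => ⟨x, hx, rfl⟩, by rintro _ ⟨x, hx, rfl⟩; simpa using hx,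
      fun x _ => L.symm_apply_apply x, fun y _ => L.apply_symm_apply y⟩
  have him : (fun y => L (b (L.symm y))) '' (L '' dQ) = L '' (b '' dQ) := by
    simp only [image_image, L.symm_apply_apply]
  obtain ⟨e, he⟩ := Lad50.alex (b := fun y => L (b (L.symm y))) (W := L '' W) (hQ.map (a Q))
    (pl_lin (hb.comp (a dQ).pg (a dQ).mg) (L : E3 →L[ℝ] (Fin 3 → ℝ)))
    (fun x hx y hy h => L.symm.injective (hi ((a dQ).mg hx) ((a dQ).mg hy) (L.injective h)))
    (hW.image L.continuous)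
    (by
      change _ ⊆ (fun y => L (b (L.symm y))) '' (L '' dQ)
      rw [him, ← L.coe_toHomeomorph, ← L.toHomeomorph.image_frontier]
      exact image_mono hf)
    (by
      change ¬ _ ⊆ (fun y => L (b (L.symm y))) '' (L '' dQ)
      rw [him, image_subset_image_iff L.injective]
      exact hn)
  refine ⟨((a Q).trans e).trans (a W).symm, fun x hx => ?_⟩
  show L.symm (e.f (L x)) = b x
  rw [he (show L x ∈ _ from ⟨x, hx, rfl⟩)]
  simp only [L.symm_apply_apply]

/-- **smooth Schoenflies relative to a collar**, with a PL ball `Q` inside the collar -/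
theorem sph3_of_ball {B Sh N Q dQ : Set E3} {e : E3 → E3} (hB : IsCompact B) (hSh : IsOpen Sh)
    (hQ : IsBall 3 Q dQ) (hQB : Q ⊆ interior B) (hBQ : B \ (Q \ dQ) ⊆ Sh) (hne : dQ.Nonempty)
    (hs : SmOn e Sh) (hi : InjOn e Sh) (hN : IsCompact N) (hf : frontier N ⊆ e '' Sh)
    (hside : ∀ x ∈ Sh, e x ∈ N ↔ x ∈ B) :
    ∃ (g : E3 → E3) (K : Set E3), IsCompact K ∧ K ⊆ interior B ∧ SmOn g (B ∪ Sh) ∧
      InjOn g (B ∪ Sh) ∧ (∀ x ∉ K, g x = e x) ∧ g '' B = N := by
  classical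
  have oQ : IsOpen (Q \ dQ) := by
    obtain ⟨a, ha⟩ := hQ
    rw [Cb_609.diff_eq_image a ha]
    exact isOpen_image_fd (by simp) isOpen_ball (a.pf.1.mono ball_subset_closedBall)
      (a.injOn.mono ball_subset_closedBall)
  have cQ := hQ.isClosed
  have QB : Q ⊆ B := hQB.trans interior_subset
  have dS : dQ ⊆ Sh := fun x hx => hBQ ⟨QB (hQ.subset hx), fun h => h.2 hx⟩
  obtain ⟨he, hLa⟩ := homeoOn_of_inj hSh hs.1.continuousOn hi
  have hU : IsOpen (Sh ∩ interior B) := hSh.inter isOpen_interior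
  obtain ⟨h₁, K₁, V, a1, a2, a3, a4, a5, a6, a7, a8⟩ := plize finrank_euclideanSpace_fin hSh hLa he
    hU inter_subset_left ⟨hs.1.mono inter_subset_left, fun x hx => hs.2 x hx.1⟩
    hQ.isCompact_bdry (fun x hx => ⟨dS hx, hQB (hQ.subset hx)⟩)
  have i1 : InjOn h₁ Sh := a1.bij.injOn
  have side1 : ∀ x ∈ Sh, h₁ x ∈ N ↔ x ∈ B := fun x hx => by
    by_cases hK : x ∈ K₁
    · refine iff_of_true ?_ (interior_subset (a3 hK).2)
      obtain ⟨y, hy, e1⟩ := a1.bij.mapsTo hx
      rw [← e1, hside y hy]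
      by_contra hyB
      have h1 : y ∉ K₁ := fun h => hyB (interior_subset (a3 h).2)
      rw [← a4 y h1] at e1
      exact h1 (i1 hy hx e1 ▸ hK)
    · rw [a4 x hK]; exact hside x hx
  have op : ∀ P, IsOpen P → P ⊆ Sh → IsOpen (h₁ '' P) := fun P h1 h2 => isOpen_image hLa a1 h1 h2
  set W := N \ h₁ '' (Sh \ Q) with hW
  have cW : IsCompact W := hN.diff (op _ (hSh.sdiff cQ) sdiff_subset)
  have inW : ∀ x ∈ Sh, x ∈ Q → h₁ x ∈ W := fun x hx hxQ =>
    ⟨(side1 x hx).2 (QB hxQ), fun ⟨y, hy, e1⟩ => hy.2 (i1 hy.1 hx e1 ▸ hxQ)⟩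
  have pb : PLOn h₁ dQ := Sol49.lpl_compact (A := V) (fun x hx => by
    obtain ⟨r, hr, S, h1, h2⟩ := a8 x hx
    exact ⟨r, hr, PLOn.mono ⟨h1, S, h2⟩ inter_subset_left⟩) hQ.isCompact_bdry a7
  obtain ⟨E, hE⟩ := alexE hQ pb (i1.mono dS) cW
    (fun p hp => by
      have hpW : p ∈ W := cW.isClosed.frontier_subset hp
      by_contra hpd
      refine hp.2 (mem_interior_iff_mem_nhds.2 ?_)
      by_cases hL : p ∈ e '' Sh
      · obtain ⟨x, hx, rfl⟩ := a1.bij.surjOn hL
        have hxQ : x ∈ Q := by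
          by_contra h
          exact hpW.2 ⟨x, ⟨hx, h⟩, rfl⟩
        refine mem_of_superset ((op _ (hSh.inter oQ) inter_subset_left).mem_nhds
          ⟨x, ⟨hx, hxQ, fun h => hpd ⟨x, h, rfl⟩⟩, rfl⟩) ?_
        rintro _ ⟨y, hy, rfl⟩
        exact inW y hy.1 hy.2.1
      · have h1 : p ∈ interior N := by
          by_contra h
          exact hL (hf ⟨subset_closure hpW.1, h⟩)
        have h2 : IsCompact (h₁ '' (B \ (Q \ dQ))) :=
          (hB.diff oQ).image_of_continuousOn (a1.cont.mono hBQ)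
        refine mem_of_superset ((isOpen_interior.sdiff h2.isClosed).mem_nhds
          ⟨h1, fun ⟨y, hy, e1⟩ => hL (e1 ▸ a1.bij.mapsTo (hBQ hy))⟩) ?_
        rintro q ⟨hq1, hq2⟩
        refine ⟨interior_subset hq1, ?_⟩
        rintro ⟨y, hy, rfl⟩
        exact hq2 ⟨y, ⟨(side1 y hy.1).1 (interior_subset hq1), fun h => hy.2 h.1⟩, rfl⟩)
    (fun h => by
      obtain ⟨z, hz⟩ := hne
      have h1 : z ∈ closure (Q \ dQ) := by rw [hQ.closure_diff]; exact hQ.subset hz
      obtain ⟨x, hx, hx'⟩ := _root_.mem_closure_iff.1 h1 Sh hSh (dS hz)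
      obtain ⟨y, hy, e1⟩ := h (inW x hx hx'.1)
      exact hx'.2 (i1 (dS hy) hx e1 ▸ hy))
  set h₂ := Q.piecewise E.f h₁ with hh₂
  have e1 : ∀ x ∈ Q, h₂ x = E.f x := fun x hx => piecewise_eq_of_mem _ _ _ hx
  have e2 : ∀ x, x ∉ Q \ dQ → h₂ x = h₁ x := fun x hx => by
    by_cases h : x ∈ Q
    · rw [e1 x h]; exact hE (by by_contra h'; exact hx ⟨h, h'⟩)
    · exact piecewise_eq_of_notMem _ _ _ h
  have oO : IsOpen (B ∪ Sh) := by
    have : B ∪ Sh = (Q \ dQ) ∪ Sh := by
      refine Subset.antisymm (union_subset (fun x hx => ?_) subset_union_right)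
        (union_subset_union_left _ (sdiff_subset.trans QB))
      by_cases h : x ∈ Q \ dQ
      · exact Or.inl h
      · exact Or.inr (hBQ ⟨hx, h⟩)
    rw [this]; exact oQ.union hSh
  have inS : ∀ x ∈ B ∪ Sh, x ∉ Q \ dQ → x ∈ Sh := fun x hx h => hx.elim (fun h' => hBQ ⟨h', h⟩) id
  have c2 : ContinuousOn h₂ (B ∪ Sh) := by
    intro x hx
    have c1 : ContinuousWithinAt h₂ Q x := by
      by_cases h : x ∈ Q
      · exact (E.pf.1 x h).congr e1 (e1 x h)
      · exact continuousWithinAt_of_notMem_closure (by rwa [cQ.closure_eq])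
    have c2 : ContinuousWithinAt h₂ (Q \ dQ)ᶜ x := by
      by_cases h : x ∈ Q \ dQ
      · exact continuousWithinAt_of_notMem_closure (by
          rw [oQ.isClosed_compl.closure_eq]; exact fun h' => h' h)
      · exact ((a1.cont.continuousAt (hSh.mem_nhds (inS x hx h))).continuousWithinAt).congr
          e2 (e2 x h)
    refine (c1.union c2).mono fun y _ => ?_
    by_cases h : y ∈ Q
    · exact Or.inl h
    · exact Or.inr fun h' => h h'.1
  have i2 : InjOn h₂ (B ∪ Sh) := by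
    have key : ∀ x ∈ Q, ∀ y ∈ B ∪ Sh, y ∉ Q → h₂ x ≠ h₂ y := fun x hx y hy hyQ e3 => by
      rw [e1 x hx, e2 y fun h => hyQ h.1] at e3
      exact (E.mf hx).2 ⟨y, ⟨inS y hy fun h => hyQ h.1, hyQ⟩, e3.symm⟩
    intro x hx y hy e3
    by_cases h : x ∈ Q <;> by_cases h' : y ∈ Q
    · rw [e1 x h, e1 y h'] at e3; exact E.injOn h h' e3
    · exact absurd e3 (key x h y hy h')
    · exact absurd e3.symm (key y h' x hx h)
    · rw [e2 x fun k => h k.1, e2 y fun k => h' k.1] at e3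
      exact i1 (inS x hx fun k => h k.1) (inS y hy fun k => h' k.1) e3
  obtain ⟨hh, hLa2⟩ := homeoOn_of_inj oO c2 i2
  have oP : IsOpen ((Q \ dQ) ∪ V ∩ (Sh ∩ interior B)) := oQ.union (a6.inter hU)
  have PB : (Q \ dQ) ∪ V ∩ (Sh ∩ interior B) ⊆ interior B :=
    union_subset (sdiff_subset.trans hQB) fun x hx => hx.2.2
  have BO : interior B ⊆ B ∪ Sh := interior_subset.trans subset_union_left
  obtain ⟨G, hG, hQG, hGP⟩ := exists_compact_between hQ.isCompact oP (fun x hx => by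
    by_cases h : x ∈ dQ
    · exact Or.inr ⟨a7 h, dS h, hQB hx⟩
    · exact Or.inl ⟨hx, h⟩)
  have near : ∀ x, x ∉ Q → h₂ =ᶠ[𝓝 x] h₁ := fun x hx => by
    filter_upwards [cQ.isOpen_compl.mem_nhds hx] with y hy
    exact e2 y fun h => hy h.1
  obtain ⟨g, b1, b2, b3, b4⟩ := stage finrank_euclideanSpace_fin R096.Ed_276.edgeB
    (R096.Rd_695.core_of_bel_spec R096.BelF_205.bel) hLa2 hh oP (PB.trans BO)
    (fun x hx => by
      obtain ⟨r, hr, hr'⟩ := Metric.isOpen_iff.1 oO x (BO (PB hx))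
      rcases hx with hx | hx
      · obtain ⟨s, hs, hs'⟩ := Metric.isOpen_iff.1 oQ x hx
        obtain ⟨h1, S, h2⟩ := (E.pf.congr e1).mono (hs'.trans sdiff_subset)
        exact ⟨s, hs, S, h1, h2⟩
      · obtain ⟨s, hs, S, -, h2⟩ := a8 x hx.1
        obtain ⟨-, T, h3⟩ := E.pf
        refine ⟨min r s, lt_min hr hs, S ∪ T,
          c2.mono ((ball_subset_ball (min_le_left _ _)).trans hr'), fun y hy => ?_⟩
        by_cases h : y ∈ Q
        · obtain ⟨a, ha, e3⟩ := h3 y h
          exact ⟨a, Finset.mem_union_right _ ha, (e1 y h).trans e3⟩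
        · obtain ⟨a, ha, e3⟩ := h2 y (ball_subset_ball (min_le_right _ _) hy)
          exact ⟨a, Finset.mem_union_left _ ha, (e2 y fun k => h k.1).trans e3⟩)
    (N := (interior G)ᶜ) isOpen_interior.isClosed_compl
    (fun x hx hxP => by
      have h1 : x ∉ Q := fun h => hx (hQG h)
      exact (a5 x ⟨inS x (BO (PB hxP)) fun h => h1 h.1, PB hxP⟩).congr (near x h1))
  have g1 : ∀ x, x ∉ G → g x = h₁ x := fun x hx => by
    rw [b4 x fun h => hx (interior_subset h), e2 x fun h => hx (interior_subset (hQG h.1))]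
  obtain ⟨g', K', d1, d2, d3, d4, -, d6⟩ := rm finrank_euclideanSpace_fin hLa2 b1 isOpen_interior BO
    (fun x hx => by
      by_cases h : x ∈ G
      · exact b2 x (hGP h)
      · refine (a5 x ⟨inS x (BO hx) fun k => h (interior_subset (hQG k.1)), hx⟩).congr ?_
        filter_upwards [hG.isClosed.isOpen_compl.mem_nhds h] with y hy
        exact g1 y hy)
    (hG.union a2) isOpen_interior (union_subset (hGP.trans PB) fun x hx => (a3 hx).2)
    ((hs.1.mono fun x hx => inS x (BO hx.1) fun k =>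
      hx.2 (Or.inl (interior_subset (hQG k.1)))).congr fun x hx => by
        rw [g1 x fun h => hx.2 (Or.inl h), a4 x fun h => hx.2 (Or.inr h)])
  have cK : IsCompact ((G ∪ K₁) ∪ K') := (hG.union a2).union d3
  have KB : (G ∪ K₁) ∪ K' ⊆ interior B :=
    union_subset (union_subset (hGP.trans PB) fun x hx => (a3 hx).2) d4
  have ge : ∀ x ∉ (G ∪ K₁) ∪ K', g' x = e x := fun x hx => by
    rw [d6 x fun h => hx (Or.inr h), g1 x fun h => hx (Or.inl (Or.inl h)),
      a4 x fun h => hx (Or.inl (Or.inr h))]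
  have loc : ∀ x ∈ B ∪ Sh, x ∉ interior B → x ∈ Sh ∧ g' =ᶠ[𝓝 x] e := fun x hx h =>
    ⟨inS x hx fun k => h (hQB k.1), by
      filter_upwards [cK.isClosed.isOpen_compl.mem_nhds fun k => h (KB k)] with y hy
      exact ge y hy⟩
  refine ⟨g', _, cK, KB, ⟨fun x hx => ?_, fun x hx => ?_⟩, d1.bij.injOn, ge, ?_⟩
  · by_cases h : x ∈ interior B
    · exact (d2.1.contDiffAt (isOpen_interior.mem_nhds h)).contDiffWithinAt
    · exact ((hs.1.contDiffAt (hSh.mem_nhds (loc x hx h).1)).congr_of_eventuallyEq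
        (loc x hx h).2).contDiffWithinAt
  · by_cases h : x ∈ interior B
    · exact d2.2 x h
    · rw [(loc x hx h).2.fderiv_eq]; exact hs.2 x (loc x hx h).1
  · have out : ∀ x ∈ B ∪ Sh, x ∉ B → g' x = h₂ x ∧ g' x ∉ N := fun x hx h => by
      have h1 := loc x hx fun k => h (interior_subset k)
      rw [h1.2.self_of_nhds, e2 x fun k => h (QB k.1), a4 x fun k => h (interior_subset (a3 k).2)]
      exact ⟨rfl, fun k => h ((hside x h1.1).1 k)⟩
    apply Subset.antisymm
    · rintro _ ⟨x, hx, rfl⟩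
      obtain ⟨y, hy, e3⟩ := d1.bij.mapsTo (Or.inl hx)
      by_cases h : y ∈ B
      · rw [← e3]
        by_cases h' : y ∈ Q
        · rw [e1 y h']; exact (E.mf h').1
        · rw [e2 y fun k => h' k.1]
          exact (side1 y (inS y hy fun k => h' k.1)).2 h
      · rw [← (out y hy h).1] at e3
        exact absurd (d1.bij.injOn hy (Or.inl hx) e3 ▸ hx) h
    · intro p hp
      have h1 : p ∈ h₂ '' (B ∪ Sh) := by
        by_cases h : p ∈ W
        · exact ⟨E.g p, Or.inl (QB (E.mg h)), by rw [e1 _ (E.mg h), E.ri p h]⟩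
        · obtain ⟨y, hy, rfl⟩ : p ∈ h₁ '' (Sh \ Q) := by
            by_contra h'
            exact h ⟨hp, h'⟩
          exact ⟨y, Or.inr hy.1, e2 y fun k => hy.2 k.1⟩
      obtain ⟨x, hx, rfl⟩ := d1.bij.surjOn h1
      refine ⟨x, ?_, rfl⟩
      by_contra h
      exact (out x hx h).2 hp

/-- a polytope between a compact set and the boundary of a convex body -/
theorem exists_polytope {B C : Set E3} (hB : IsCompact B) (hc : Convex ℝ B) {z : E3}
    (hz : z ∈ interior B) (hC : IsCompact C) (hCB : C ⊆ interior B) :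
    ∃ Q dQ : Set E3, IsBall 3 Q dQ ∧ Q ⊆ interior B ∧ C ⊆ Q \ dQ ∧ dQ.Nonempty := by
  classical
  have hC' : IsCompact (insert z C) := hC.insert z
  have hsep : ∀ p : frontier B, ∃ l : E3 →L[ℝ] ℝ, (∀ y ∈ insert z C, l (y - z) < 1) ∧
      1 < l (p - z) := by
    rintro ⟨p, hp⟩
    obtain ⟨f, hf⟩ := geometric_hahn_banach_open_point hc.interior isOpen_interior hp.2
    obtain ⟨m, hm, hm'⟩ := hC'.exists_isMaxOn (insert_nonempty z C) f.continuous.continuousOn
    have h1 : f m < f p := hf m (insert_subset hz hCB hm)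
    have h2 : f z ≤ f m := hm' (mem_insert z C)
    have h3 : 0 < (f m + f p) / 2 - f z := by linarith
    refine ⟨((f m + f p) / 2 - f z)⁻¹ • f, fun y hy => ?_, ?_⟩
    · have h4 : f y ≤ f m := hm' hy
      rw [smul_apply, smul_eq_mul, inv_mul_lt_iff₀ h3, map_sub]
      linarith
    · rw [smul_apply, smul_eq_mul, lt_inv_mul_iff₀ h3, map_sub]
      linarith
  choose l hl1 hl2 using hsep
  have cF : IsCompact (frontier B) := hB.of_isClosed_subset isClosed_frontier
    hB.isClosed.frontier_subset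
  obtain ⟨T, hT⟩ := cF.elim_nhds_subcover' (fun p hp => {y | 1 < l ⟨p, hp⟩ (y - z)})
    (fun p hp => (isOpen_lt continuous_const (by fun_prop)).mem_nhds (hl2 ⟨p, hp⟩))
  set Q : Set E3 := {y | ∀ f ∈ T.image l, f (y - z) ≤ 1} with hQ
  have cv : Convex ℝ Q := by
    intro x hx y hy a b ha hb hab f hf
    have : a • x + b • y - z = a • (x - z) + b • (y - z) := by
      rw [smul_sub, smul_sub, sub_add_sub_comm, ← add_smul, hab, one_smul]
    rw [this, map_add, map_smul, map_smul, smul_eq_mul, smul_eq_mul]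
    nlinarith [hx f hf, hy f hf]
  have zQ : z ∈ Q := fun f _ => by simp
  have QB : Q ⊆ interior B := by
    refine cv.isPreconnected.subset_of_closure_inter_subset isOpen_interior ⟨z, zQ, hz⟩ ?_
    rintro x ⟨hx, hxQ⟩
    by_contra h
    obtain ⟨p, hp, hxp⟩ := mem_iUnion₂.1 (hT ⟨closure_mono interior_subset hx, h⟩)
    exact absurd (hxQ _ (Finset.mem_image_of_mem l hp)) (not_le.2 hxp)
  have hb := Pb_715.isBall_core z ⊤ (T.image l) (K := Q)
    (dK := {y | y ∈ Q ∧ ∃ f ∈ T.image l, f (y - z) = 1}) (fun y => by simp [hQ])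
    (fun y => Iff.rfl) (hB.isBounded.subset (QB.trans interior_subset))
  rw [finrank_top, finrank_euclideanSpace_fin] at hb
  refine ⟨Q, _, hb, QB, fun y hy => ⟨fun f hf => ?_, ?_⟩, ?_⟩
  · obtain ⟨p, -, rfl⟩ := Finset.mem_image.1 hf
    exact (hl1 p y (Or.inr hy)).le
  · rintro ⟨-, f, hf, e⟩
    obtain ⟨p, -, rfl⟩ := Finset.mem_image.1 hf
    exact (hl1 p y (Or.inr hy)).ne e
  · obtain ⟨a, ha⟩ := hb
    rw [← ha]
    exact (NormedSpace.sphere_nonempty.2 zero_le_one).image _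

/-- **(SPH3) smooth Schoenflies theorem relative to a collar.**  `B` is a convex body, `e` a smooth
embedding of a neighbourhood `Sh` of its boundary which carries the inside to the inside of a
compact set `N`; then `e` extends, after a change on a compact part of the interior, to a smooth
embedding of `B ∪ Sh` which maps `B` onto `N`. -/
theorem sph3 {B Sh N : Set E3} {e : E3 → E3} (hB : IsCompact B) (hc : Convex ℝ B)
    (hne : (interior B).Nonempty) (hSh : IsOpen Sh) (hBS : frontier B ⊆ Sh)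
    (hs : SmOn e Sh) (hi : InjOn e Sh) (hN : IsCompact N) (hf : frontier N ⊆ e '' Sh)
    (hside : ∀ x ∈ Sh, e x ∈ N ↔ x ∈ B) :
    ∃ (g : E3 → E3) (K : Set E3), IsCompact K ∧ K ⊆ interior B ∧ SmOn g (B ∪ Sh) ∧
      InjOn g (B ∪ Sh) ∧ (∀ x ∉ K, g x = e x) ∧ g '' B = N := by
  obtain ⟨z, hz⟩ := hne
  obtain ⟨Q, dQ, h1, h2, h3, h4⟩ := exists_polytope hB hc hz (hB.diff hSh) (fun x hx => by
    by_contra h
    exact hx.2 (hBS ⟨subset_closure hx.1, h⟩))
  exact sph3_of_ball hB hSh h1 h2 (fun x hx => by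
    by_contra h
    exact hx.2 (h3 ⟨hx.1, h⟩)) h4 hs hi hN hf hside

end Crest.Agent.X212.Sph1
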